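import Vale.Agent.P190.Defs

/-!
P190, colengths under Frobenius: images of families under the `p`-th power map, and decompositions of
ring elements along products of linear forms.
-/

open Submodule

namespace Vale.Agent.P190.Colength

variable {k K : Type} [Field k] [Field K] [Algebra k K] {r : ℕ}

/-- Componentwise `p`-th power. -/
def frobVec (p : ℕ) (v : Fin r → K) : Fin r → K := fun i => v i ^ p

/-- The family of `R`-combinations of `p`-th powers. -/
def frobFam (C : Cone k K) (p : ℕ) (N : ℤ → Submodule k (Fin r → K)) (n : ℤ) :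
    Submodule k (Fin r → K) :=
  Submodule.span k
    {u | ∃ j : ℤ, ∃ a ∈ C.R (n - p * j), ∃ v ∈ N j, u = a • frobVec p v}

/-- A family stable under the ring. -/
def Stable (C : Cone k K) (N : ℤ → Submodule k (Fin r → K)) : Prop :=
  ∀ (m n : ℤ), ∀ a ∈ C.R m, ∀ v ∈ N n, a • v ∈ N (m + n)

variable {C : Cone k K} {p : ℕ} {N N' : ℤ → Submodule k (Fin r → K)}

theorem mem_frobFam {n j : ℤ} {a : K} (ha : a ∈ C.R (n - p * j)) {v : Fin r → K} (hv : v ∈ N j) :
    a • frobVec p v ∈ frobFam C p N n :=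
  subset_span ⟨j, a, ha, v, hv, rfl⟩

theorem frobFam_mono (h : ∀ n, N' n ≤ N n) (n : ℤ) : frobFam C p N' n ≤ frobFam C p N n :=
  span_le.2 fun _ ⟨_, _, ha, _, hv, hu⟩ => hu ▸ mem_frobFam ha (h _ hv)

theorem frobFam_stable : Stable C (frobFam C p N) := by
  intro m n a ha v hv
  induction hv using span_induction with
  | mem u hu =>
    obtain ⟨j, b, hb, w, hw, rfl⟩ := hu
    rw [smul_smul]
    exact mem_frobFam (by have := C.mul_mem _ _ _ ha _ hb; rwa [← add_sub_assoc] at this) hw
  | zero => simp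
  | add u w _ _ hu hw => rw [smul_add]; exact add_mem hu hw
  | smul c u _ hu => rw [smul_comm]; exact smul_mem _ c hu

theorem algebraMap_mem_R_zero (c : k) : algebraMap k K c ∈ C.R 0 := by
  rw [C.R_zero, Algebra.algebraMap_eq_smul_one]
  exact smul_mem _ c (subset_span rfl)

theorem one_mem_R (n : ℕ) : (1 : K) ∈ C.R n := by
  induction n with
  | zero => simpa using algebraMap_mem_R_zero (C := C) (1 : k)
  | succ n ih => simpa using C.mul_mem _ _ _ ih _ C.one_mem

theorem pow_mem_R {f : K} (hf : f ∈ C.R 1) (n : ℕ) : f ^ n ∈ C.R n := by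
  induction n with
  | zero => simpa using one_mem_R (C := C) 0
  | succ n ih => simpa [pow_succ] using C.mul_mem _ _ _ ih _ hf

theorem frobVec_smul (p : ℕ) (a : K) (v : Fin r → K) :
    frobVec p (a • v) = a ^ p • frobVec p v := by
  funext i; simp [frobVec, mul_pow]

theorem frobVec_add (p : ℕ) [Fact p.Prime] [CharP K p] (v w : Fin r → K) :
    frobVec p (v + w) = frobVec p v + frobVec p w := by
  funext i; simp [frobVec, add_pow_char]

section Decompose

variable {ι : Type*} [Fintype ι] (f : ι → K)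

/-- Elements of large degree are combinations of products of the forms and elements of degree `g`. -/
theorem R_le_prod (hgen : ∀ n : ℤ, (C.g : ℤ) ≤ n →
      C.R (n + 1) ≤ ⨆ i, (C.R n).map (LinearMap.mulLeft k (f i))) (t : ℕ) :
    C.R ((C.g : ℤ) + t) ≤
      span k {u | ∃ e : ι → ℕ, ∃ a ∈ C.R C.g, ∑ i, e i = t ∧ u = (∏ i, f i ^ e i) * a} := by
  classical
  induction t with
  | zero =>
    intro a ha
    exact subset_span ⟨0, a, by simpa using ha, by simp, by simp⟩
  | succ t ih =>
    rw [Nat.cast_succ, ← add_assoc]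
    refine (hgen _ (by omega)).trans (iSup_le fun i => ?_)
    refine (Submodule.map_mono ih).trans ?_
    rw [Submodule.map_span, span_le]
    rintro _ ⟨u, ⟨e, a, ha, he, rfl⟩, rfl⟩
    refine subset_span ⟨e + Pi.single i 1, a, ha, ?_, ?_⟩
    · simp [Finset.sum_add_distrib, he]
    · rw [LinearMap.mulLeft_apply, ← mul_assoc]
      congr 1
      simp_rw [Pi.add_apply, pow_add, Finset.prod_mul_distrib, mul_comm (f i)]
      congr 1
      rw [Finset.prod_eq_single i (fun b _ hb => by simp [hb]) (by simp)]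
      simp

theorem prod_mem_R (hf : ∀ i, f i ∈ C.R 1) (s : Finset ι) (e : ι → ℕ) :
    ∏ i ∈ s, f i ^ e i ∈ C.R ((∑ i ∈ s, e i : ℕ) : ℤ) := by
  classical
  induction s using Finset.induction with
  | empty => simpa using one_mem_R (C := C) 0
  | insert a s ha ih =>
    rw [Finset.prod_insert ha, Finset.sum_insert ha, Nat.cast_add]
    exact C.mul_mem _ _ _ (pow_mem_R (hf a) _) _ ih

theorem pow_factor (hf : ∀ i, f i ∈ C.R 1) (e : ι → ℕ) (i : ι) (q : ℕ) (hq : q ≤ e i) {a : K}
    (ha : a ∈ C.R C.g) :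
    ∃ b ∈ C.R ((C.g : ℤ) + (∑ j, e j : ℕ) - q), (∏ j, f j ^ e j) * a = f i ^ q * b := by
  classical
  refine ⟨(∏ j, f j ^ Function.update e i (e i - q) j) * a, ?_, ?_⟩
  · have h : ∑ j, Function.update e i (e i - q) j + q = ∑ j, e j := by
      rw [← Finset.add_sum_erase _ _ (Finset.mem_univ i),
        ← Finset.add_sum_erase Finset.univ e (Finset.mem_univ i), Function.update_self]
      rw [Finset.sum_congr rfl fun j hj => Function.update_of_ne (Finset.ne_of_mem_erase hj) _ _]
      omega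
    have := C.mul_mem _ _ _ (prod_mem_R f hf Finset.univ (Function.update e i (e i - q))) _ ha
    convert this using 2
    omega
  · rw [← Finset.mul_prod_erase _ _ (Finset.mem_univ i),
      ← Finset.mul_prod_erase Finset.univ (fun j => f j ^ Function.update e i (e i - q) j)
        (Finset.mem_univ i)]
    simp only [Function.update_self]
    rw [Finset.prod_congr rfl fun j hj => show f j ^ Function.update e i (e i - q) j = f j ^ e j by
      rw [Function.update_of_ne (Finset.ne_of_mem_erase hj)]]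
    rw [show f i ^ e i = f i ^ q * f i ^ (e i - q) by rw [← pow_add]; congr 1; omega]
    ring

/-- Elements of large degree lie in the ideal of the `q`-th powers of the forms. -/
theorem R_le_pow (hf : ∀ i, f i ∈ C.R 1) (hgen : ∀ n : ℤ, (C.g : ℤ) ≤ n →
      C.R (n + 1) ≤ ⨆ i, (C.R n).map (LinearMap.mulLeft k (f i))) (q : ℕ) {m : ℤ}
    (hm : (C.g : ℤ) + Fintype.card ι * q < m) :
    C.R m ≤ ⨆ i, (C.R (m - q)).map (LinearMap.mulLeft k (f i ^ q)) := by
  have h0 : (0 : ℤ) ≤ Fintype.card ι * q := by positivity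
  obtain ⟨t, rfl⟩ : ∃ t : ℕ, m = (C.g : ℤ) + t := ⟨(m - C.g).toNat, by omega⟩
  refine (R_le_prod f hgen t).trans (span_le.2 ?_)
  rintro _ ⟨e, a, ha, he, rfl⟩
  obtain ⟨i, hi⟩ : ∃ i, q ≤ e i := by
    by_contra h
    push Not at h
    have := Finset.sum_le_card_nsmul Finset.univ e q fun i _ => (h i).le
    rw [he, Finset.card_univ, smul_eq_mul] at this
    have : (t : ℤ) ≤ Fintype.card ι * q := by exact_mod_cast this
    omega
  obtain ⟨b, hb, hab⟩ := pow_factor f hf e i q hi ha
  rw [he] at hb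
  exact mem_iSup_of_mem i ⟨b, hb, by rw [LinearMap.mulLeft_apply, hab]⟩

end Decompose

/-- The three standard forms. -/
def forms (C : Cone k K) : Fin 3 → K := ![1, C.η, C.ζ]

theorem forms_mem (i : Fin 3) : forms C i ∈ C.R 1 := by
  fin_cases i <;> simp [forms, C.one_mem, C.η_mem, C.ζ_mem]

theorem forms_gen (n : ℤ) (hn : (C.g : ℤ) ≤ n) :
    C.R (n + 1) ≤ ⨆ i, (C.R n).map (LinearMap.mulLeft k (forms C i)) := by
  rw [C.gen n hn]
  refine sup_le (sup_le ?_ ?_) ?_
  · exact fun a ha => mem_iSup_of_mem 0 ⟨a, ha, by simp [forms]⟩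
  · exact fun a ha => mem_iSup_of_mem 1 (by simpa [forms] using ha)
  · exact fun a ha => mem_iSup_of_mem 2 (by simpa [forms] using ha)

/-- Families that agree in high degree have the same images in high degree. -/
theorem frobFam_le_of_eventually (hst : Stable C N) (hb : ∃ n₀, ∀ n < n₀, N n = ⊥)
    {n₁ : ℤ} (h : ∀ n ≥ n₁, N n ≤ N' n) :
    ∀ᶠ n : ℤ in Filter.atTop, frobFam C p N n ≤ frobFam C p N' n := by
  obtain ⟨n₀, hn₀⟩ := hb
  obtain ⟨Q, hQ⟩ : ∃ Q : ℕ, n₁ - n₀ ≤ Q := ⟨(n₁ - n₀).toNat, by omega⟩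
  refine Filter.eventually_atTop.2
    ⟨(C.g : ℤ) + 3 * ((p * Q : ℕ) : ℤ) + p * |n₁| + 1, fun n hn => span_le.2 ?_⟩
  rintro _ ⟨j, a, ha, v, hv, rfl⟩
  by_cases hj0 : j < n₀
  · rw [hn₀ j hj0, mem_bot] at hv
    subst hv
    rcases Nat.eq_zero_or_pos p with hp | hp
    · subst hp
      rw [show frobVec 0 (0 : Fin r → K) = frobVec 0 ((0 : K) • (0 : Fin r → K)) by simp]
      exact mem_frobFam (j := j) (by simpa using ha) (by simp)
    · rw [show frobVec p (0 : Fin r → K) = 0 by funext i; simp [frobVec, hp.ne'], smul_zero]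
      exact zero_mem _
  push Not at hj0
  by_cases hj : n₁ ≤ j
  · exact mem_frobFam ha (h j hj hv)
  push Not at hj
  have hlt : (C.g : ℤ) + Fintype.card (Fin 3) * ((p * Q : ℕ) : ℤ) < n - p * j := by
    have : (p : ℤ) * j ≤ p * |n₁| :=
      mul_le_mul_of_nonneg_left (hj.le.trans (le_abs_self _)) (by positivity)
    simp only [Fintype.card_fin]
    push_cast at hn ⊢
    linarith
  have key : C.R (n - p * j) ≤
      (frobFam C p N' n).comap ((LinearMap.id : K →ₗ[k] K).smulRight (frobVec p v)) := by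
    refine (R_le_pow (forms C) forms_mem forms_gen (p * Q) hlt).trans (iSup_le fun i => ?_)
    rintro _ ⟨b, hb', rfl⟩
    rw [mem_comap]
    show (forms C i ^ (p * Q) * b) • frobVec p v ∈ _
    have hQ' : n₁ ≤ (Q : ℤ) + j := by omega
    rw [mul_comm _ b, mul_comm p Q, pow_mul, mul_smul, ← frobVec_smul]
    refine mem_frobFam (j := (Q : ℤ) + j) ?_ (h _ hQ' (hst _ _ _ (pow_mem_R (forms_mem i) Q) _ hv))
    rw [show n - (p : ℤ) * ((Q : ℤ) + j) = n - p * j - ((p * Q : ℕ) : ℤ) by push_cast; ring]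
    exact hb'
  exact key ha

end Vale.Agent.P190.Colength
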