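import Vale.Agent.P190.Bound.Colength.Point

/-!
P190, colengths under Frobenius: eventual colength `l` becomes at most `p² l` for the images of the
`p`-th power map, on a cone whose charts have two-generated maximal ideals.
-/

open Submodule

namespace Vale.Agent.P190.Colength

variable {k K : Type} [Field k] [Field K] [Algebra k K] {r : ℕ} {C : Cone k K}

theorem frobFam_fd {p : ℕ} [Fact p.Prime] [CharP K p] {N : ℤ → Submodule k (Fin r → K)}
    (hfd : ∀ n, FiniteDimensional k (N n)) (hb : ∃ n₀, ∀ n < n₀, N n = ⊥) (n : ℤ) :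
    FiniteDimensional k (frobFam C p N n) := by
  classical
  obtain ⟨n₀, hn₀⟩ := hb
  have hp : 0 < p := (Fact.out : p.Prime).pos
  have hR := C.fd
  choose F hF using fun j => (Submodule.fg_top _).1 ((hfd j).fg_top)
  choose A hA using fun m => (Submodule.fg_top _).1 ((hR m).fg_top)
  set S : Finset (Fin r → K) := (Finset.Icc n₀ n ∪ Finset.Icc n₀ 0).biUnion fun j =>
    (A (n - p * j) ×ˢ F j).image fun q => q.1 • frobVec p q.2
  suffices h : frobFam C p N n ≤ span k (S : Set (Fin r → K)) from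
    Submodule.finiteDimensional_of_le h
  refine span_le.2 ?_
  rintro _ ⟨j, a, ha, v, hv, rfl⟩
  rcases lt_or_ge j n₀ with hj | hj
  · rw [hn₀ j hj, mem_bot] at hv
    rw [hv, show frobVec p (0 : Fin r → K) = 0 by funext i; simp [frobVec, hp.ne'], smul_zero]
    exact zero_mem _
  by_cases hneg : n - p * j < 0
  · rw [C.R_neg _ hneg, mem_bot] at ha
    rw [ha, zero_smul]
    exact zero_mem _
  have hjS : j ∈ Finset.Icc n₀ n ∪ Finset.Icc n₀ 0 := by
    simp only [Finset.mem_union, Finset.mem_Icc]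
    rcases le_or_gt j 0 with h | h
    · exact Or.inr ⟨hj, h⟩
    · refine Or.inl ⟨hj, ?_⟩
      nlinarith [show (1 : ℤ) ≤ p by exact_mod_cast hp]
  rw [← hA (n - p * j)] at ha
  rw [← hF j] at hv
  induction hv using span_induction generalizing a with
  | mem w hw =>
    induction ha using span_induction with
    | mem b hb =>
      exact subset_span (Finset.mem_biUnion.2 ⟨j, hjS,
        Finset.mem_image.2 ⟨(b, w), Finset.mem_product.2 ⟨hb, hw⟩, rfl⟩⟩)
    | zero => rw [zero_smul]; exact zero_mem _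
    | add b b' _ _ h h' => rw [add_smul]; exact add_mem h h'
    | smul c b _ h => rw [smul_assoc]; exact smul_mem _ _ h
  | zero =>
    rw [show frobVec p (0 : Fin r → K) = 0 by funext i; simp [frobVec, hp.ne'], smul_zero]
    exact zero_mem _
  | add w w' _ _ h h' => rw [frobVec_add, smul_add]; exact add_mem (h a ha) (h' a ha)
  | smul c w _ h =>
    rw [show frobVec p (c • w) = c ^ p • frobVec p w by
      funext i; simp [frobVec, smul_pow], smul_comm]
    exact smul_mem _ _ (h a ha)

/-- A family contains the products of the ring with each of its high pieces. -/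
theorem gen_span {N : ℤ → Submodule k (Fin r → K)} {b : ℤ}
    (hgen : ∀ n ≥ b, N (n + 1) ≤ N n
      ⊔ (N n).map (DistribSMul.toLinearMap k (Fin r → K) C.η)
      ⊔ (N n).map (DistribSMul.toLinearMap k (Fin r → K) C.ζ))
    {n : ℤ} (hn : b ≤ n) (m : ℕ) :
    N (n + m) ≤ span k {u | ∃ a ∈ C.R m, ∃ v ∈ N n, u = a • v} := by
  induction m with
  | zero =>
    intro v hv
    exact subset_span ⟨1, one_mem_R 0, v, by simpa using hv, by simp⟩
  | succ m ih =>
    rw [Nat.cast_succ, ← add_assoc]
    have key : ∀ f ∈ C.R 1, ∀ v ∈ N (n + m),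
        f • v ∈ span k {u | ∃ a ∈ C.R ((m : ℤ) + 1), ∃ v ∈ N n, u = a • v} := fun f hf v hv => by
      have h0 := ih hv
      clear hv
      induction h0 using span_induction with
      | mem u hu =>
        obtain ⟨a, ha, w, hw, rfl⟩ := hu
        refine subset_span ⟨f * a, ?_, w, hw, by rw [smul_smul]⟩
        rw [add_comm]
        exact C.mul_mem _ _ _ hf _ ha
      | zero => simp
      | add u u' _ _ h h' => rw [smul_add]; exact add_mem h h'
      | smul c u _ h => rw [smul_comm]; exact smul_mem _ c h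
    refine (hgen _ (by omega)).trans (sup_le (sup_le ?_ ?_) ?_)
    · intro v hv
      simpa using key 1 C.one_mem v hv
    · rintro _ ⟨v, hv, rfl⟩; exact key _ C.η_mem v hv
    · rintro _ ⟨v, hv, rfl⟩; exact key _ C.ζ_mem v hv

/-- The scalars by which the ring acts modulo the lower family on a fixed vector. -/
def scalarPart (C : Cone k K) (N' : ℤ → Submodule k (Fin r → K)) (s : K) (e : Fin r → K) (j : ℤ)
    (m : ℕ) : Submodule k K where
  carrier := {a | ∃ c : k, (a - algebraMap k K c * s ^ m) • e ∈ N' (m + j)}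
  add_mem' := fun {a a'} ⟨c, hc⟩ ⟨c', hc'⟩ => ⟨c + c', by
    convert add_mem hc hc' using 1
    rw [← add_smul, map_add]; congr 1; ring⟩
  zero_mem' := ⟨0, by simp⟩
  smul_mem' := fun d a ⟨c, hc⟩ => ⟨d * c, by
    convert smul_mem _ d hc using 1
    rw [← algebraMap_smul K d ((a - algebraMap k K c * s ^ m) • e), smul_smul, map_mul]
    congr 1; rw [Algebra.smul_def]; ring⟩

theorem scalarPart_mono {N' : ℤ → Submodule k (Fin r → K)} (hN' : Stable C N') {s : K}
    (hs : s ∈ C.R 1) {v : Fin r → K} {j : ℤ} {m t t' : ℕ} (h : t ≤ t') :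
    scalarPart C N' s (s ^ t • v) (j + t) m ≤ scalarPart C N' s (s ^ t' • v) (j + t') m := by
  rintro a ⟨c, hc⟩
  refine ⟨c, ?_⟩
  obtain ⟨i, rfl⟩ := Nat.exists_eq_add_of_le h
  rw [pow_add, mul_comm (s ^ t), mul_smul, smul_comm]
  convert hN' _ _ _ (pow_mem_R hs i) _ hc using 2
  push_cast; ring

/-- In positive eventual colength there is a layer. -/
theorem exists_layer [IsAlgClosed k] {N N' : ℤ → Submodule k (Fin r → K)} (hN : Stable C N)
    (hN' : Stable C N') (hle : ∀ n, N' n ≤ N n) (hfd : ∀ n, FiniteDimensional k (N n))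
    (hgen : ∃ b, ∀ n ≥ b, N (n + 1) ≤ N n
      ⊔ (N n).map (DistribSMul.toLinearMap k (Fin r → K) C.η)
      ⊔ (N n).map (DistribSMul.toLinearMap k (Fin r → K) C.ζ))
    {l : ℕ} (hl0 : 0 < l)
    (hl : ∀ᶠ n : ℤ in Filter.atTop,
      Module.finrank k (N n) = Module.finrank k (N' n) + l) :
    ∃ i : Fin 3, ∃ (e : Fin r → K) (j : ℤ), e ∈ N j ∧ Layer C N' (forms C i) e j := by
  classical
  obtain ⟨b, hb⟩ := hgen
  obtain ⟨n₁, hn₁⟩ := Filter.eventually_atTop.1 hl
  have hforms : ∀ i, forms C i ≠ 0 := by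
    intro i
    fin_cases i
    · simp [forms]
    · simpa [forms] using C.indep.ne_zero 0
    · simpa [forms] using C.indep.ne_zero 1
  -- one of the three forms is not nilpotent on the quotient
  obtain ⟨i, n, hn, v₀, hv₀, hv₀'⟩ : ∃ i : Fin 3, ∃ n : ℕ, (b ≤ n ∧ n₁ ≤ n) ∧
      ∃ v ∈ N n, ∀ t : ℕ, forms C i ^ t • v ∉ N' (n + t) := by
    by_contra hcon
    push Not at hcon
    obtain ⟨n, hn⟩ : ∃ n : ℕ, b ≤ n ∧ n₁ ≤ n := ⟨(max b n₁).toNat, by omega⟩
    have hT : ∀ i, ∃ T : ℕ, ∀ v ∈ N n, forms C i ^ T • v ∈ N' (n + T) := fun i => by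
      obtain ⟨S, hS⟩ := (Submodule.fg_top _).1 (hfd n).fg_top
      choose t ht using fun v : Fin r → K => fun hv : v ∈ N n => hcon i n hn v hv
      refine ⟨S.attach.sup fun v => t v.1 (hS ▸ subset_span v.2), fun v hv => ?_⟩
      rw [← hS] at hv
      induction hv using span_induction with
      | mem w hw =>
        obtain ⟨q, hq⟩ := Nat.exists_eq_add_of_le
          (Finset.le_sup (f := fun v : S => t v.1 (hS ▸ subset_span v.2))
            (Finset.mem_attach S ⟨w, hw⟩))
        rw [hq, pow_add, mul_comm, mul_smul]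
        convert hN' _ _ _ (pow_mem_R (forms_mem i) q) _ (ht w (hS ▸ subset_span hw)) using 2
        push_cast; ring
      | zero => simp
      | add x y _ _ hx hy => rw [smul_add]; exact add_mem hx hy
      | smul c x _ hx => rw [smul_comm]; exact smul_mem _ c hx
    choose T hT using hT
    set Q := Finset.univ.sup T
    obtain ⟨m, hm⟩ : ∃ m : ℕ, (C.g : ℤ) + 3 * Q < m := ⟨C.g + 3 * Q + 1, by push_cast; omega⟩
    have hNN : N ((n : ℤ) + m) ≤ N' ((n : ℤ) + m) := by
      refine (gen_span hb hn.1 m).trans (span_le.2 ?_)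
      rintro _ ⟨a, ha, v, hv, rfl⟩
      show a • v ∈ N' ((n : ℤ) + m)
      have key : C.R m ≤ (N' ((n : ℤ) + m)).comap ((LinearMap.id : K →ₗ[k] K).smulRight v) := by
        refine (R_le_pow (forms C) forms_mem forms_gen Q (by simpa using hm)).trans
          (iSup_le fun i => ?_)
        rintro _ ⟨c, hc, rfl⟩
        simp only [mem_comap, LinearMap.smulRight_apply, LinearMap.id_apply, LinearMap.mulLeft_apply]
        obtain ⟨q, hq⟩ := Nat.exists_eq_add_of_le (Finset.le_sup (f := T) (Finset.mem_univ i))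
        rw [show Q = T i + q from hq, pow_add, mul_assoc, mul_comm, mul_smul]
        have h1 := hN' _ _ _ (C.mul_mem _ _ _ (pow_mem_R (forms_mem i) q) _ hc) _ (hT i v hv)
        convert h1 using 2
        have : (Q : ℤ) = T i + q := by exact_mod_cast hq
        omega
      exact key ha
    have h1 := hn₁ ((n : ℤ) + m) (by omega)
    have h2 : Module.finrank k (N ((n : ℤ) + m)) ≤ Module.finrank k (N' ((n : ℤ) + m)) := by
      have := hfd ((n : ℤ) + m)
      have : FiniteDimensional k (N' ((n : ℤ) + m)) := Submodule.finiteDimensional_of_le (hle _)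
      exact Submodule.finrank_mono hNN
    omega
  set s := forms C i with hsdef
  have hs : s ∈ C.R 1 := forms_mem i
  have hsn : ∀ t : ℕ, s ^ t ≠ 0 := fun t => pow_ne_zero t (hforms i)
  -- the localised quotient
  let L' : Submodule k (Fin r → K) :=
    { carrier := {w | ∃ t : ℕ, s ^ t • w ∈ N' t}
      add_mem' := by
        rintro w w' ⟨t, ht⟩ ⟨t', ht'⟩
        refine ⟨t + t', ?_⟩
        rw [smul_add, pow_add, Nat.cast_add]
        refine add_mem ?_ ?_
        · rw [mul_comm, mul_smul, add_comm]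
          exact hN' _ _ _ (pow_mem_R hs t') _ ht
        · rw [mul_smul]
          exact hN' _ _ _ (pow_mem_R hs t) _ ht'
      zero_mem' := ⟨0, by simp⟩
      smul_mem' := fun c w ⟨t, ht⟩ => ⟨t, by rw [smul_comm]; exact smul_mem _ c ht⟩ }
  let sc : K → (Fin r → K) →ₗ[k] (Fin r → K) := fun a => DistribSMul.toLinearMap k (Fin r → K) a
  have hop : ∀ (m : ℕ), ∀ a ∈ C.R m, L' ≤ L'.comap (sc (a / s ^ m)) := by
    rintro m a ha w ⟨t, ht⟩
    refine ⟨m + t, ?_⟩
    show s ^ (m + t) • (a / s ^ m) • w ∈ _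
    rw [Nat.cast_add, smul_smul, show s ^ (m + t) * (a / s ^ m) = a * s ^ t by
      rw [pow_add]; field_simp [hsn m], mul_smul]
    exact hN' _ _ _ ha _ ht
  let op : ∀ (m : ℕ) (a : C.R m), Module.End k ((Fin r → K) ⧸ L') := fun m a =>
    L'.mapQ L' (sc ((a : K) / s ^ m)) (hop m a a.2)
  let φ : ℕ → (Fin r → K) →ₗ[k] (Fin r → K) ⧸ L' := fun q => L'.mkQ.comp (sc (s ^ q)⁻¹)
  let T : ℕ → Submodule k ((Fin r → K) ⧸ L') := fun q => (N q).map (φ q)
  have hTfd : ∀ q, FiniteDimensional k (T q) := fun q => by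
    have := hfd q
    infer_instance
  have hTmono : ∀ q q' : ℕ, q ≤ q' → T q ≤ T q' := by
    rintro q q' hqq _ ⟨v, hv, rfl⟩
    obtain ⟨d, rfl⟩ := Nat.exists_eq_add_of_le hqq
    refine ⟨s ^ d • v, ?_, ?_⟩
    · rw [Nat.cast_add, add_comm]
      exact hN _ _ _ (pow_mem_R hs d) _ hv
    · show L'.mkQ ((s ^ (q + d))⁻¹ • s ^ d • v) = L'.mkQ ((s ^ q)⁻¹ • v)
      rw [smul_smul, show (s ^ (q + d))⁻¹ * s ^ d = (s ^ q)⁻¹ by
        rw [pow_add]; field_simp [hsn d]]
  have hTl : ∀ q : ℕ, n₁ ≤ q → Module.finrank k (T q) ≤ l := fun q hq => by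
    have := hfd q
    have e1 := LinearMap.finrank_range_add_finrank_ker ((φ q).domRestrict (N q))
    rw [LinearMap.range_domRestrict] at e1
    have e2 : Module.finrank k (N' q) ≤
        Module.finrank k (LinearMap.ker ((φ q).domRestrict (N q))) := by
      rw [← (Submodule.comapSubtypeEquivOfLe (hle q)).finrank_eq]
      refine Submodule.finrank_mono ?_
      rintro ⟨v, hv⟩ hv'
      show L'.mkQ ((s ^ q)⁻¹ • v) = 0
      rw [Submodule.mkQ_apply, Submodule.Quotient.mk_eq_zero]
      refine ⟨q, ?_⟩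
      rw [smul_smul, mul_inv_cancel₀ (hsn q), one_smul]
      exact hv'
    have := hn₁ q hq
    show Module.finrank k ((N q).map (φ q)) ≤ l
    omega
  have hex : ∃ d, ∃ q ≥ n, l - Module.finrank k (T q) = d := ⟨_, n, le_rfl, rfl⟩
  obtain ⟨q₀, hq₀, hd⟩ := Nat.find_spec hex
  have hTconst : ∀ q ≥ q₀, T q = T q₀ := fun q hq => by
    refine (Submodule.eq_of_le_of_finrank_le (hTmono _ _ hq) ?_).symm
    have h1 := Nat.find_min' hex ⟨q, hq₀.trans hq, rfl⟩
    rw [← hd] at h1
    have := hTl q₀ (by omega)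
    have := hTl q (by omega)
    omega
  have hinv : ∀ (m : ℕ) (a : C.R m), T q₀ ≤ (T q₀).comap (op m a) := by
    rintro m a _ ⟨v, hv, rfl⟩
    show L'.mkQ (((a : K) / s ^ m) • (s ^ q₀)⁻¹ • v) ∈ T q₀
    rw [← hTconst (m + q₀) (by omega)]
    refine ⟨(a : K) • v, by rw [Nat.cast_add]; exact hN _ _ _ a.2 _ hv, ?_⟩
    show L'.mkQ ((s ^ (m + q₀))⁻¹ • (a : K) • v) = _
    rw [smul_smul, smul_smul, show (s ^ (m + q₀))⁻¹ * (a : K) = (a : K) / s ^ m * (s ^ q₀)⁻¹ by
      rw [pow_add]; field_simp]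
  have hne : T q₀ ≠ ⊥ := by
    intro h
    have : φ n v₀ ∈ T q₀ := hTmono n q₀ hq₀ ⟨v₀, hv₀, rfl⟩
    rw [h, mem_bot] at this
    obtain ⟨t, ht⟩ := (Submodule.Quotient.mk_eq_zero L').1 this
    refine hv₀' t ?_
    have := hN' _ _ _ (pow_mem_R hs n) _ ht
    rw [← mul_smul] at this
    show s ^ t • v₀ ∈ _
    convert this using 1
    show _ = (s ^ n * s ^ t) • (s ^ n)⁻¹ • v₀
    rw [smul_smul]
    congr 1
    field_simp [hsn n]
  -- a common eigenvector
  let Good : Submodule k ((Fin r → K) ⧸ L') → Prop :=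
    fun V => V ≤ T q₀ ∧ V ≠ ⊥ ∧ ∀ (m : ℕ) (a : C.R m), V ≤ V.comap (op m a)
  have hexV : ∃ d, ∃ V, Good V ∧ Module.finrank k V = d := ⟨_, T q₀, ⟨le_rfl, hne, hinv⟩, rfl⟩
  obtain ⟨V, ⟨hVT, hVne, hVinv⟩, hVd⟩ := Nat.find_spec hexV
  have := hTfd q₀
  have : FiniteDimensional k V := Submodule.finiteDimensional_of_le hVT
  have : Nontrivial V := Submodule.nontrivial_iff_ne_bot.2 hVne
  have heig : ∀ (m : ℕ) (a : C.R m), ∃ c : k, ∀ x ∈ V, op m a x = c • x := fun m a => by
    obtain ⟨c, hc⟩ := Module.End.exists_eigenvalue ((op m a).restrict (hVinv m a))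
    obtain ⟨⟨x, hxV⟩, hx⟩ := hc.exists_hasEigenvector
    set V' := V ⊓ LinearMap.ker (op m a - c • LinearMap.id)
    have hgood : Good V' := by
      refine ⟨inf_le_left.trans hVT, ?_, fun m' a' y hy => ?_⟩
      · refine (Submodule.ne_bot_iff _).2 ⟨x, ⟨hxV, ?_⟩, fun h => hx.2 (Subtype.ext h)⟩
        simpa [sub_eq_zero] using congrArg Subtype.val hx.apply_eq_smul
      · refine ⟨hVinv m' a' hy.1, ?_⟩
        have hy2 : op m a y = c • y := by simpa [sub_eq_zero] using hy.2
        have hcomm : op m a (op m' a' y) = op m' a' (op m a y) := by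
          obtain ⟨w, rfl⟩ := L'.mkQ_surjective y
          show L'.mkQ (((a : K) / s ^ m) • ((a' : K) / s ^ m') • w) =
            L'.mkQ (((a' : K) / s ^ m') • ((a : K) / s ^ m) • w)
          rw [smul_comm]
        rw [SetLike.mem_coe, LinearMap.mem_ker]
        simp [hcomm, hy2, map_smul]
    have hV' : V' = V := Submodule.eq_of_le_of_finrank_le inf_le_left
      (hVd.le.trans (Nat.find_min' hexV ⟨V', hgood, rfl⟩))
    refine ⟨c, fun y hy => ?_⟩
    have : y ∈ V' := hV'.symm ▸ hy
    simpa [sub_eq_zero] using this.2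
  obtain ⟨x, hxV, hx0⟩ := (Submodule.ne_bot_iff V).1 hVne
  obtain ⟨v, hv, rfl⟩ := hVT hxV
  have hone : ∀ (m : ℕ) (a : C.R m), ∃ t : ℕ,
      (a : K) ∈ scalarPart C N' s (s ^ t • v) (q₀ + t) m := fun m a => by
    obtain ⟨c, hc⟩ := heig m a
    have h : L'.mkQ (((a : K) / s ^ m) • (s ^ q₀)⁻¹ • v) = L'.mkQ (c • (s ^ q₀)⁻¹ • v) :=
      (hc _ hxV).trans (map_smul L'.mkQ c _).symm
    obtain ⟨t, ht⟩ := (Submodule.Quotient.eq L').1 h
    refine ⟨t, c, ?_⟩
    have h1 := hN' _ _ _ (pow_mem_R hs (m + q₀)) _ ht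
    convert h1 using 1
    · congr 1; push_cast; ring
    · simp only [← algebraMap_smul K c ((s ^ q₀)⁻¹ • v), smul_smul, ← sub_smul]
      congr 1
      rw [pow_add]
      field_simp [hsn q₀, hsn m]
  have hunif : ∀ m : ℕ, ∃ t : ℕ, C.R m ≤ scalarPart C N' s (s ^ t • v) (q₀ + t) m := fun m => by
    obtain ⟨S, hS⟩ := (Submodule.fg_top _).1 (C.fd m).fg_top
    choose t ht using hone m
    refine ⟨S.attach.sup fun a => t ⟨a.1, hS ▸ subset_span a.2⟩, ?_⟩
    refine hS.ge.trans (span_le.2 fun a ha => ?_)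
    exact scalarPart_mono hN' hs (Finset.le_sup (f := fun a : S => t ⟨a.1, hS ▸ subset_span a.2⟩)
      (Finset.mem_attach S ⟨a, ha⟩)) (ht ⟨a, hS ▸ subset_span ha⟩)
  choose tm htm using hunif
  set t := (Finset.range (C.g + 2)).sup tm
  have hsmall : ∀ m < C.g + 2, C.R m ≤ scalarPart C N' s (s ^ t • v) (q₀ + t) m := fun m hm =>
    (htm m).trans (scalarPart_mono hN' hs (Finset.le_sup (Finset.mem_range.2 hm)))
  refine ⟨i, s ^ t • v, q₀ + t, ?_, fun m => ?_, fun u hu => ?_⟩
  · rw [add_comm]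
    exact hN _ _ _ (pow_mem_R hs t) _ hv
  · induction m with
    | zero => exact fun a ha => hsmall 0 (by omega) ha
    | succ m ih =>
      rcases Nat.lt_or_ge m (C.g + 1) with hm | hm
      · exact fun a ha => hsmall (m + 1) (by omega) ha
      intro a ha
      suffices h : C.R ((m + 1 : ℕ) : ℤ) ≤
          scalarPart C N' s (s ^ t • v) (q₀ + t) (m + 1) from h ha
      rw [Nat.cast_succ]
      refine (forms_gen m (by omega)).trans (iSup_le fun o => ?_)
      rintro _ ⟨a, ha, rfl⟩
      obtain ⟨c, hc⟩ := ih a ha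
      obtain ⟨c', hc'⟩ := hsmall 1 (by omega) (forms_mem o)
      refine ⟨c' * c, ?_⟩
      have h1 := hN' _ _ _ (forms_mem o) _ hc
      have h2 := hN' _ _ _ (pow_mem_R hs m) _
        (smul_mem (N' ((1 : ℕ) + (q₀ + t))) c hc')
      rw [← algebraMap_smul K c] at h2
      rw [show (((m + 1 : ℕ) : ℤ)) + (q₀ + t) = 1 + (m + (q₀ + t)) by push_cast; ring]
      rw [show ((m : ℤ)) + ((1 : ℕ) + (q₀ + t)) = 1 + (m + (q₀ + t)) by push_cast; ring] at h2
      convert add_mem h1 h2 using 1
      simp only [smul_smul, ← add_smul, LinearMap.mulLeft_apply, map_mul, hsdef]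
      congr 1
      ring
  · refine hx0 ?_
    show L'.mkQ ((s ^ q₀)⁻¹ • v) = 0
    rw [Submodule.mkQ_apply, Submodule.Quotient.mk_eq_zero]
    refine ⟨u + t + q₀, ?_⟩
    rw [smul_smul, show s ^ (u + t + q₀) * (s ^ q₀)⁻¹ = s ^ u * s ^ t by
      rw [pow_add, pow_add]; field_simp [hsn q₀], mul_smul]
    convert hu using 2
    push_cast; ring

/-- Eventual colength `l` becomes at most `p² l`. -/
theorem frobFam_colength [IsAlgClosed k] {p : ℕ} [Fact p.Prime] [CharP k p]
    (hchart : ∀ s ∈ ({1, C.η, C.ζ} : Set K), ∀ P : Ideal (C.chart s), P.IsMaximal →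
      ∃ u ∈ P, ∃ v ∈ P, ∀ w ∈ P, ∃ t ∉ P, t * w ∈ Ideal.span {u, v})
    {N N' : ℤ → Submodule k (Fin r → K)} (hN : Stable C N) (hN' : Stable C N')
    (hle : ∀ n, N' n ≤ N n) (hfd : ∀ n, FiniteDimensional k (N n))
    (hb : ∃ n₀, ∀ n < n₀, N n = ⊥)
    (hgen : ∃ b, ∀ n ≥ b, N (n + 1) ≤ N n
      ⊔ (N n).map (DistribSMul.toLinearMap k (Fin r → K) C.η)
      ⊔ (N n).map (DistribSMul.toLinearMap k (Fin r → K) C.ζ))
    (l : ℕ) (hl : ∀ᶠ n : ℤ in Filter.atTop,
      Module.finrank k (N n) = Module.finrank k (N' n) + l) :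
    ∀ᶠ n : ℤ in Filter.atTop,
      Module.finrank k (frobFam C p N n) ≤ Module.finrank k (frobFam C p N' n) + p ^ 2 * l := by
  classical
  have : CharP K p := charP_of_injective_algebraMap (algebraMap k K).injective p
  induction l generalizing N' with
  | zero =>
    obtain ⟨n₁, hn₁⟩ := Filter.eventually_atTop.1 hl
    have heq : ∀ n ≥ n₁, N n ≤ N' n := fun n hn => by
      have := hfd n
      exact (Submodule.eq_of_le_of_finrank_le (hle n) (hn₁ n hn).le).ge
    filter_upwards [frobFam_le_of_eventually (p := p) hN hb heq] with n hn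
    have hb' : ∃ n₀, ∀ n < n₀, N' n = ⊥ :=
      hb.imp fun n₀ h m hm => le_bot_iff.1 ((hle m).trans (h m hm).le)
    have := frobFam_fd (C := C) (p := p)
      (fun m => by have := hfd m; exact Submodule.finiteDimensional_of_le (hle m)) hb' n
    simpa using Submodule.finrank_mono hn
  | succ l ih =>
    obtain ⟨i, e, j, hej, hL⟩ := exists_layer hN hN' hle hfd hgen l.succ_pos hl
    set s := forms C i
    have hs : s ∈ C.R 1 := forms_mem i
    have hsC : s ∈ ({1, C.η, C.ζ} : Set K) := by fin_cases i <;> simp [s, forms]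
    have hs0 : s ≠ 0 := fun h => hL.proper 1 (by rw [h]; simp)
    set N₁ : ℤ → Submodule k (Fin r → K) :=
      fun n => N' n ⊔ span k {u | ∃ q : ℕ, n = q + j ∧ u = s ^ q • e} with hN₁
    have hN₁s : Stable C N₁ := by
      intro m n a ha w hw
      by_cases hm : m < 0
      · rw [C.R_neg m hm, mem_bot] at ha
        rw [ha, zero_smul]
        exact zero_mem _
      obtain ⟨m, rfl⟩ : ∃ q : ℕ, m = q := ⟨m.toNat, by omega⟩
      obtain ⟨w', hw', x, hx, rfl⟩ := mem_sup.1 hw
      rw [smul_add]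
      refine add_mem (mem_sup_left (hN' _ _ _ ha _ hw')) ?_
      clear hw
      induction hx using span_induction with
      | mem u hu =>
        obtain ⟨q, rfl, rfl⟩ := hu
        obtain ⟨c, hc⟩ := hL.scalar m a ha
        rw [show a • s ^ q • e = s ^ q • ((a - algebraMap k K c * s ^ m) • e) +
            c • (s ^ (m + q) • e) by
          rw [← algebraMap_smul K c, smul_smul, smul_smul, smul_smul, ← add_smul, pow_add]
          congr 1; ring]
        refine add_mem (mem_sup_left ?_) (smul_mem _ _ (mem_sup_right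
          (subset_span ⟨m + q, by push_cast; ring, rfl⟩)))
        convert hN' _ _ _ (pow_mem_R hs q) _ hc using 2
        ring
      | zero => simp
      | add u u' _ _ h h' => rw [smul_add]; exact add_mem h h'
      | smul c u _ h => rw [smul_comm]; exact smul_mem _ c h
    have hle₁ : ∀ n, N₁ n ≤ N n := fun n => sup_le (hle n) (span_le.2 (by
      rintro _ ⟨q, rfl, rfl⟩
      exact hN _ _ _ (pow_mem_R hs q) _ hej))
    have hspan : ∀ q : ℕ, N₁ (q + j) = N' (q + j) ⊔ span k {s ^ q • e} := fun q => by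
      simp only [hN₁]
      congr 2
      ext u
      exact ⟨fun ⟨q', h, hu⟩ => by obtain rfl : q' = q := by omega
                                   exact hu,
        fun hu => ⟨q, rfl, hu⟩⟩
    have hl₁ : ∀ᶠ n : ℤ in Filter.atTop,
        Module.finrank k (N n) = Module.finrank k (N₁ n) + l := by
      filter_upwards [hl, Filter.eventually_ge_atTop j] with n hn hnj
      obtain ⟨q, rfl⟩ : ∃ q : ℕ, n = q + j := ⟨(n - j).toNat, by omega⟩
      have := hfd (q + j)
      have : FiniteDimensional k (N' (q + j)) := Submodule.finiteDimensional_of_le (hle _)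
      have hne : s ^ q • e ≠ 0 := fun h => hL.proper q (by rw [h]; exact zero_mem _)
      have e1 := Submodule.finrank_sup_add_finrank_inf_eq (N' (q + j)) (span k {s ^ q • e})
      have hinf : N' (q + j) ⊓ span k {s ^ q • e} = ⊥ := by
        rw [eq_bot_iff]
        rintro x ⟨hx, hx'⟩
        obtain ⟨c, rfl⟩ := mem_span_singleton.1 hx'
        rcases eq_or_ne c 0 with rfl | hc
        · simp
        · exact absurd (by simpa [hc] using smul_mem _ c⁻¹ hx) (hL.proper q)
      rw [hinf, finrank_bot, finrank_span_singleton hne] at e1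
      rw [hspan]
      omega
    have hih := ih hN₁s hle₁ hl₁
    have hchart' := hchart s hsC
    have hlayer := layer_bound (p := p) hN' hs hs0 hchart' hL
    have hb' : ∃ n₀, ∀ n < n₀, N' n = ⊥ :=
      hb.imp fun n₀ h m hm => le_bot_iff.1 ((hle m).trans (h m hm).le)
    have hfd' : ∀ m, FiniteDimensional k (N' m) := fun m => by
      have := hfd m; exact Submodule.finiteDimensional_of_le (hle m)
    obtain ⟨m₀, hm₀⟩ := Filter.eventually_atTop.1 hlayer
    filter_upwards [hih, Filter.eventually_ge_atTop (m₀ + p * j)] with n hn hnm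
    obtain ⟨G, hG⟩ := hm₀ (n - p * j) (by omega)
    rw [show n - p * j + p * j = n by ring] at hG
    have hstep : frobFam C p N₁ n ≤ frobFam C p N' n ⊔ span k (Set.range G) := by
      refine span_le.2 ?_
      rintro _ ⟨j', a, ha, w, hw, rfl⟩
      obtain ⟨w', hw', x, hx, rfl⟩ := mem_sup.1 hw
      rw [frobVec_add, smul_add]
      refine add_mem (mem_sup_left (mem_frobFam ha hw')) ?_
      clear hw
      induction hx using span_induction generalizing a with
      | mem u hu =>
        obtain ⟨q, rfl, rfl⟩ := hu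
        rw [frobVec_smul, smul_smul]
        refine hG _ ?_
        have := C.mul_mem _ _ _ ha _ (pow_mem_R hs (q * p))
        rw [pow_mul] at this
        convert this using 2
        push_cast; ring
      | zero =>
        rw [show frobVec p (0 : Fin r → K) = 0 by
          funext o; simp [frobVec, (Fact.out : p.Prime).ne_zero], smul_zero]
        exact zero_mem _
      | add u u' _ _ h h' => rw [frobVec_add, smul_add]; exact add_mem (h a ha) (h' a ha)
      | smul c u _ h =>
        rw [show frobVec p (c • u) = c ^ p • frobVec p u by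
          funext o; simp [frobVec, smul_pow], smul_comm]
        exact smul_mem _ _ (h a ha)
    have := frobFam_fd (C := C) (p := p) hfd' hb' n
    have : FiniteDimensional k (span k (Set.range G)) :=
      FiniteDimensional.span_of_finite k (Set.finite_range G)
    have h1 := Submodule.finrank_mono hstep
    have h2 := Submodule.finrank_add_le_finrank_add_finrank (frobFam C p N' n)
      (span k (Set.range G))
    have h3 : Module.finrank k (span k (Set.range G)) ≤ p ^ 2 :=
      (finrank_range_le_card G).trans (le_of_eq (by simp [sq]))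
    rw [Nat.mul_succ]
    omega

end Vale.Agent.P190.Colength
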