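import Vale.Agent.P190.Bound.Colength.Basic

/-!
P190, colengths under Frobenius: a one-dimensional layer at a point with two-generated maximal ideal
grows by at most `p²`.
-/

open Submodule

namespace Vale.Agent.P190.Colength

variable {k K : Type} [Field k] [Field K] [Algebra k K] {r : ℕ}
variable {C : Cone k K}

/-- Elements of a chart are fractions of one degree. -/
theorem exists_frac {s : K} (hs : s ∈ C.R 1) (hs0 : s ≠ 0) {y : K} (hy : y ∈ C.chart s) :
    ∃ n : ℕ, ∃ a ∈ C.R n, y = a / s ^ n := by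
  refine Algebra.adjoin_induction (p := fun y _ => ∃ n : ℕ, ∃ a ∈ C.R n, y = a / s ^ n)
    (fun x hx => hx) (fun c => ⟨0, _, by simpa using algebraMap_mem_R_zero (C := C) c, by simp⟩)
    ?_ ?_ hy
  · rintro x y - - ⟨m, a, ha, rfl⟩ ⟨n, b, hb, rfl⟩
    refine ⟨m + n, a * s ^ n + s ^ m * b, ?_, ?_⟩
    · rw [Nat.cast_add]
      exact add_mem (C.mul_mem _ _ _ ha _ (pow_mem_R hs n)) (C.mul_mem _ _ _ (pow_mem_R hs m) _ hb)
    · rw [pow_add]; field_simp
  · rintro x y - - ⟨m, a, ha, rfl⟩ ⟨n, b, hb, rfl⟩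
    exact ⟨m + n, a * b, by rw [Nat.cast_add]; exact C.mul_mem _ _ _ ha _ hb,
      by rw [pow_add]; field_simp⟩

theorem frac_mem {s : K} {n : ℕ} {a : K} (ha : a ∈ C.R n) : a / s ^ n ∈ C.chart s :=
  Algebra.subset_adjoin ⟨n, a, ha, rfl⟩

/-- The fractions `a / s ^ m` with `a • w` in the family. -/
def locIdeal {s : K} (hs : s ∈ C.R 1) (hs0 : s ≠ 0) (Φ : ℤ → Submodule k (Fin r → K))
    (hΦ : Stable C Φ) (w : Fin r → K) (j : ℤ) : Ideal (C.chart s) where
  carrier := {y | ∃ m : ℕ, ∃ a ∈ C.R m, a • w ∈ Φ (m + j) ∧ (y : K) = a / s ^ m}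
  zero_mem' := ⟨0, 0, zero_mem _, by simp, by simp⟩
  add_mem' := by
    rintro x y ⟨m, a, ha, haw, hx⟩ ⟨n, b, hb, hbw, hy⟩
    refine ⟨m + n, a * s ^ n + s ^ m * b, ?_, ?_, ?_⟩
    · rw [Nat.cast_add]
      exact add_mem (C.mul_mem _ _ _ ha _ (pow_mem_R hs n)) (C.mul_mem _ _ _ (pow_mem_R hs m) _ hb)
    · rw [add_smul, mul_comm a, mul_smul, mul_smul]
      refine add_mem ?_ ?_
      · convert hΦ _ _ _ (pow_mem_R hs n) _ haw using 2
        push_cast; ring
      · convert hΦ _ _ _ (pow_mem_R hs m) _ hbw using 2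
        push_cast; ring
    · rw [AddMemClass.coe_add, hx, hy, pow_add]; field_simp
  smul_mem' := by
    rintro c x ⟨m, a, ha, haw, hx⟩
    obtain ⟨n, b, hb, hc⟩ := exists_frac hs hs0 c.2
    refine ⟨n + m, b * a, by rw [Nat.cast_add]; exact C.mul_mem _ _ _ hb _ ha, ?_, ?_⟩
    · rw [mul_smul]
      convert hΦ _ _ _ hb _ haw using 2
      push_cast; ring
    · rw [smul_eq_mul, MulMemClass.coe_mul, hx, hc, pow_add]; field_simp

/-- Multiples of a vector landing in a family. -/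
def ker (C : Cone k K) (Φ : ℤ → Submodule k (Fin r → K)) (w : Fin r → K) (j : ℤ) (m : ℤ) :
    Submodule k K :=
  C.R m ⊓ (Φ (m + j)).comap ((LinearMap.id : K →ₗ[k] K).smulRight w)

theorem mem_ker {Φ : ℤ → Submodule k (Fin r → K)} {w : Fin r → K} {j m : ℤ} {a : K} :
    a ∈ ker C Φ w j m ↔ a ∈ C.R m ∧ a • w ∈ Φ (m + j) := Iff.rfl

/-- Multiplication by `s` is eventually injective modulo the kernel, once it is eventually onto. -/
theorem exists_injective {Φ : ℤ → Submodule k (Fin r → K)} (hΦ : Stable C Φ) {w : Fin r → K}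
    {j : ℤ} {s : K} (hs : s ∈ C.R 1) (hs0 : s ≠ 0) {m₀ : ℤ}
    (hsurj : ∀ m ≥ m₀, C.R (m + 1) ≤
      (C.R m).map (LinearMap.mulLeft k s) ⊔ ker C Φ w j (m + 1)) :
    ∃ m₁ : ℤ, ∀ m ≥ m₁, ∀ a ∈ C.R m, (s * a) • w ∈ Φ (m + 1 + j) → a • w ∈ Φ (m + j) := by
  classical
  have hfd := C.fd
  set μ := LinearMap.mulLeft k s
  have hinj : Function.Injective μ := mul_right_injective₀ hs0
  set J' : ℤ → Submodule k K := fun m => C.R m ⊓ (ker C Φ w j (m + 1)).comap μ
  have hJJ : ∀ m, ker C Φ w j m ≤ J' m := fun m a ⟨ha, haw⟩ => by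
    refine ⟨ha, ?_, ?_⟩
    · exact (add_comm 1 m) ▸ C.mul_mem _ _ _ hs _ ha
    · show (s * a) • w ∈ Φ (m + 1 + j)
      rw [mul_smul, show m + 1 + j = 1 + (m + j) by ring]
      exact hΦ _ _ _ hs _ haw
  have fdJ : ∀ m, FiniteDimensional k (J' m) := fun m => Submodule.finiteDimensional_of_le inf_le_left
  have fdker : ∀ m, FiniteDimensional k (ker C Φ w j m) := fun m =>
    Submodule.finiteDimensional_of_le inf_le_left
  set c : ℤ → ℕ := fun m => Module.finrank k (C.R m) - Module.finrank k (ker C Φ w j m)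
  have hstep : ∀ m ≥ m₀, c (m + 1) + Module.finrank k (J' m)
      ≤ Module.finrank k (C.R m) := fun m hm => by
    have hle : (C.R m).map μ ⊔ ker C Φ w j (m + 1) = C.R (m + 1) := by
      refine le_antisymm (sup_le ?_ inf_le_left) (hsurj m hm)
      rintro _ ⟨a, ha, rfl⟩
      exact (add_comm 1 m) ▸ C.mul_mem _ _ _ hs _ ha
    have e := Submodule.finrank_sup_add_finrank_inf_eq ((C.R m).map μ) (ker C Φ w j (m + 1))
    rw [hle] at e
    have hinf : (C.R m).map μ ⊓ ker C Φ w j (m + 1) = (J' m).map μ := by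
      ext x
      constructor
      · rintro ⟨⟨a, ha, rfl⟩, hx⟩
        exact ⟨a, ⟨ha, hx⟩, rfl⟩
      · rintro ⟨a, ⟨ha, hx⟩, rfl⟩
        exact ⟨⟨a, ha, rfl⟩, hx⟩
    rw [hinf, ← (equivMapOfInjective μ hinj _).finrank_eq,
      ← (equivMapOfInjective μ hinj _).finrank_eq] at e
    simp only [c]
    have : Module.finrank k (J' m) ≤ Module.finrank k (C.R m) :=
      Submodule.finrank_mono inf_le_left
    omega
  have hex : ∃ v, ∃ m ≥ m₀, c m = v := ⟨_, m₀, le_rfl, rfl⟩
  obtain ⟨m₁, hm₁, hv⟩ := Nat.find_spec hex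
  have hmin : ∀ m ≥ m₀, c m₁ ≤ c m := fun m hm => hv ▸ Nat.find_min' hex ⟨m, hm, rfl⟩
  have hanti : ∀ m ≥ m₀, c (m + 1) ≤ c m := fun m hm => by
    have := hstep m hm
    have := Submodule.finrank_mono (hJJ m)
    simp only [c] at *
    omega
  have hconst : ∀ i : ℕ, c (m₁ + i) = c m₁ := fun i => by
    refine le_antisymm ?_ (hmin _ (by omega))
    induction i with
    | zero => simp
    | succ i ih => rw [Nat.cast_succ, ← add_assoc]; exact (hanti _ (by omega)).trans ih
  refine ⟨m₁, fun m hm a ha haw => ?_⟩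
  obtain ⟨i, rfl⟩ : ∃ i : ℕ, m = m₁ + i := ⟨(m - m₁).toNat, by omega⟩
  have h1 := hstep (m₁ + i) (by omega)
  rw [add_assoc, ← Nat.cast_succ, hconst] at h1
  have h2 : c (m₁ + i) = c m₁ := hconst i
  have hle := hJJ (m₁ + i)
  have heq : ker C Φ w j (m₁ + i) = J' (m₁ + i) := by
    refine Submodule.eq_of_le_of_finrank_le hle ?_
    have := Submodule.finrank_mono (inf_le_left : ker C Φ w j (m₁ + i) ≤ C.R (m₁ + i))
    simp only [c] at h1 h2
    omega
  have hsa : s * a ∈ C.R (m₁ + i + 1) := by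
    have := C.mul_mem _ _ _ hs _ ha
    rwa [add_comm] at this
  have : a ∈ J' (m₁ + i) := ⟨ha, hsa, haw⟩
  rw [← heq] at this
  exact this.2

/-- A layer spanned by the multiples of one vector with a character. -/
structure Layer (C : Cone k K) (N' : ℤ → Submodule k (Fin r → K)) (s : K) (e : Fin r → K) (j : ℤ) :
    Prop where
  scalar : ∀ m : ℕ, ∀ a ∈ C.R m, ∃ c : k, (a - algebraMap k K c * s ^ m) • e ∈ N' (m + j)
  proper : ∀ i : ℕ, s ^ i • e ∉ N' (i + j)

/-- The bound for one layer: high degree multiples of the `p`-th power of the vector lie in the image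
of the lower family plus `p²` fixed lines. -/
theorem layer_bound {p : ℕ} [Fact p.Prime] [CharP K p] {N' : ℤ → Submodule k (Fin r → K)}
    (hN' : Stable C N') {s : K} (hs : s ∈ C.R 1) (hs0 : s ≠ 0)
    (hchart : ∀ P : Ideal (C.chart s), P.IsMaximal →
      ∃ u ∈ P, ∃ v ∈ P, ∀ w ∈ P, ∃ t ∉ P, t * w ∈ Ideal.span {u, v})
    {e : Fin r → K} {j : ℤ} (hL : Layer C N' s e j) :
    ∀ᶠ m : ℤ in Filter.atTop, ∃ G : Fin p × Fin p → Fin r → K,
      ∀ a ∈ C.R m, a • frobVec p e ∈ frobFam C p N' (m + p * j) ⊔ span k (Set.range G) := by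
  classical
  have hp : 0 < p := (Fact.out : p.Prime).pos
  set P := locIdeal hs hs0 N' hN' e j
  set J := locIdeal hs hs0 (frobFam C p N') (frobFam_stable) (frobVec p e) (p * j)
  have hsm : ∀ m : ℕ, s ^ m ≠ 0 := fun m => pow_ne_zero m hs0
  have h1P : (1 : C.chart s) ∉ P := by
    rintro ⟨m, a, _, haw, h⟩
    rw [OneMemClass.coe_one, eq_div_iff (hsm m), one_mul] at h
    exact hL.proper m (h ▸ haw)
  have hres : ∀ y : C.chart s, ∃ c : k, y - algebraMap k _ c ∈ P := fun y => by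
    obtain ⟨m, a, ha, hy⟩ := exists_frac hs hs0 y.2
    obtain ⟨c, hc⟩ := hL.scalar m a ha
    refine ⟨c, m, _, sub_mem ha ?_, hc, ?_⟩
    · simpa using C.mul_mem _ _ _ (algebraMap_mem_R_zero c) _ (pow_mem_R hs m)
    · rw [AddSubgroupClass.coe_sub, hy, Subalgebra.coe_algebraMap, sub_div,
        mul_div_cancel_right₀ _ (hsm m)]
  have hmax : P.IsMaximal := by
    rw [Ideal.isMaximal_iff]
    refine ⟨h1P, fun I y hPI hyP hyI => ?_⟩
    obtain ⟨c, hc⟩ := hres y
    have hc0 : c ≠ 0 := fun h => hyP (by simpa [h] using hc)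
    have : algebraMap k (C.chart s) c ∈ I := by simpa using sub_mem hyI (hPI hc)
    simpa [← map_mul, hc0] using I.mul_mem_left (algebraMap k (C.chart s) c⁻¹) this
  have hpow : ∀ b ∈ P, b ^ p ∈ J := by
    rintro b ⟨m, a, ha, hae, hb⟩
    refine ⟨p * m, a ^ p, ?_, ?_, ?_⟩
    · clear hb hae b
      suffices ∀ q : ℕ, a ^ q ∈ C.R ((q * m : ℕ) : ℤ) from this p
      intro q
      induction q with
      | zero => simpa using one_mem_R (C := C) 0
      | succ q ih => rw [pow_succ, Nat.succ_mul, Nat.cast_add]; exact C.mul_mem _ _ _ ih _ ha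
    · rw [← frobVec_smul, ← one_smul K (frobVec p (a • e))]
      refine mem_frobFam (j := (m : ℤ) + j) ?_ hae
      rw [show ((p * m : ℕ) : ℤ) + p * j - p * (m + j) = ((0 : ℕ) : ℤ) by push_cast; ring]
      exact one_mem_R 0
    · rw [SubmonoidClass.coe_pow, hb, div_pow, ← pow_mul, mul_comm m]
  obtain ⟨u, hu, v, hv, huv⟩ := hchart P hmax
  set Sp : Submodule k (C.chart s) :=
    span k (Set.range fun q : Fin p × Fin p => u ^ (q.1 : ℕ) * v ^ (q.2 : ℕ)) ⊔ J.restrictScalars k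
  have hgen : ∀ w ∈ P, ∃ a b : C.chart s, w - (a * u + b * v) ∈ J := fun w hw => by
    obtain ⟨t, htP, ht⟩ := huv w hw
    obtain ⟨a, b, hab⟩ := Ideal.mem_span_pair.1 ht
    obtain ⟨c, hc⟩ := hres t
    have hc0 : c ^ p ≠ 0 := pow_ne_zero _ fun h => htP (by simpa [h] using hc)
    set w₀ := t - algebraMap k (C.chart s) c with hw₀
    set d := algebraMap k (C.chart s) (c ^ p)⁻¹
    have : CharP (C.chart s) p :=
      RingHom.charP (C.chart s).val.toRingHom Subtype.val_injective p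
    have htp : t ^ p = algebraMap k _ (c ^ p) + w₀ ^ p := by
      rw [map_pow, ← add_pow_char, hw₀, add_sub_cancel]
    refine ⟨d * t ^ (p - 1) * a, d * t ^ (p - 1) * b, ?_⟩
    rw [mul_assoc _ a, mul_assoc _ b, ← mul_add, hab]
    have hd : d * algebraMap k (C.chart s) (c ^ p) = 1 := by
      rw [← map_mul, inv_mul_cancel₀ hc0, map_one]
    have : w - d * t ^ (p - 1) * (t * w) = (-(d * w)) * w₀ ^ p := by
      rw [mul_assoc d, ← mul_assoc (t ^ (p - 1)), ← pow_succ, Nat.sub_add_cancel hp, htp]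
      linear_combination (-w) * hd
    rw [this]
    exact J.mul_mem_left _ (hpow _ hc)
  have hspan : ∀ d i l : ℕ, 2 * p ≤ i + l + d → ∀ y, u ^ i * v ^ l * y ∈ Sp := by
    intro d
    induction d with
    | zero =>
      intro i l h y
      refine mem_sup_right ?_
      rcases (by omega : p ≤ i ∨ p ≤ l) with h' | h'
      · rw [← Nat.sub_add_cancel h', pow_add, mul_comm _ (u ^ p), mul_assoc, mul_assoc]
        exact J.mul_mem_right _ (hpow u hu)
      · rw [← Nat.sub_add_cancel h', pow_add, mul_comm _ (v ^ p), mul_left_comm _ (v ^ p), mul_assoc]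
        exact J.mul_mem_right _ (hpow v hv)
    | succ d ih =>
      intro i l h y
      by_cases hi : p ≤ i
      · refine mem_sup_right ?_
        rw [← Nat.sub_add_cancel hi, pow_add, mul_comm _ (u ^ p), mul_assoc, mul_assoc]
        exact J.mul_mem_right _ (hpow u hu)
      by_cases hl : p ≤ l
      · refine mem_sup_right ?_
        rw [← Nat.sub_add_cancel hl, pow_add, mul_comm _ (v ^ p), mul_left_comm _ (v ^ p), mul_assoc]
        exact J.mul_mem_right _ (hpow v hv)
      obtain ⟨c, hc⟩ := hres y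
      obtain ⟨a, b, hab⟩ := hgen _ hc
      rw [show u ^ i * v ^ l * y = c • (u ^ i * v ^ l) + (u ^ (i + 1) * v ^ l * a +
          u ^ i * v ^ (l + 1) * b + u ^ i * v ^ l * (y - algebraMap k _ c - (a * u + b * v))) by
        rw [Algebra.smul_def]; ring]
      refine add_mem (smul_mem _ _ (mem_sup_left (subset_span
        ⟨(⟨i, not_le.1 hi⟩, ⟨l, not_le.1 hl⟩), rfl⟩))) (add_mem (add_mem ?_ ?_) ?_)
      · exact ih _ _ (by omega) a
      · exact ih _ _ (by omega) b
      · exact mem_sup_right (J.mul_mem_left _ hab)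
  have hall : ∀ y, y ∈ Sp := fun y => by simpa using hspan (2 * p) 0 0 (by omega) y
  choose M A hA hAq using fun q : Fin p × Fin p =>
    exists_frac hs hs0 (u ^ (q.1 : ℕ) * v ^ (q.2 : ℕ)).2
  choose c hc using fun i => hL.scalar 1 (forms C i) (forms_mem i)
  set f : Option (Fin 3) → K :=
    fun o => o.elim s fun i => forms C i - algebraMap k K (c i) * s
  have hf : ∀ o, f o ∈ C.R 1 := by
    rintro (_ | i)
    · exact hs
    · exact sub_mem (forms_mem i) (by simpa using C.mul_mem _ _ _ (algebraMap_mem_R_zero (c i)) _ hs)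
  have hfgen : ∀ n : ℤ, (C.g : ℤ) ≤ n →
      C.R (n + 1) ≤ ⨆ o, (C.R n).map (LinearMap.mulLeft k (f o)) := fun n hn => by
    refine (forms_gen n hn).trans (iSup_le fun i => ?_)
    rintro _ ⟨a, ha, rfl⟩
    rw [show LinearMap.mulLeft k (forms C i) a = f (some i) * a + c i • (f none * a) by
      simp [f, Algebra.smul_def]; ring]
    exact add_mem (mem_iSup_of_mem _ ⟨a, ha, rfl⟩)
      (smul_mem _ _ (mem_iSup_of_mem _ ⟨a, ha, rfl⟩))
  have hsurj : ∀ m ≥ ((C.g : ℤ) + 4 * p), C.R (m + 1) ≤ (C.R m).map (LinearMap.mulLeft k s) ⊔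
      ker C (frobFam C p N') (frobVec p e) (p * j) (m + 1) := fun m hm => by
    refine (R_le_pow f hf hfgen p (by simp; omega)).trans (iSup_le fun o => ?_)
    rintro _ ⟨b, hb, rfl⟩
    rw [LinearMap.mulLeft_apply]
    rcases o with _ | i
    · refine mem_sup_left ⟨s ^ (p - 1) * b, ?_, ?_⟩
      · have := C.mul_mem _ _ _ (pow_mem_R hs (p - 1)) _ hb
        rwa [show ((p - 1 : ℕ) : ℤ) + (m + 1 - p) = m by omega] at this
      · show s * (s ^ (p - 1) * b) = f none ^ p * b
        rw [← mul_assoc, ← pow_succ', Nat.sub_add_cancel hp]; rfl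
    · refine mem_sup_right (mem_ker.2 ⟨?_, ?_⟩)
      · have := C.mul_mem _ _ _ (pow_mem_R (hf (some i)) p) _ hb
        rwa [show (p : ℤ) + (m + 1 - p) = m + 1 by ring] at this
      · rw [show f (some i) ^ p * b = b * f (some i) ^ p from mul_comm _ _, mul_smul, ← frobVec_smul]
        refine mem_frobFam (j := 1 + j) ?_ (by simpa [f] using hc i)
        rwa [show m + 1 + p * j - p * (1 + j) = m + 1 - p by ring]
  obtain ⟨m₁, hinj⟩ := exists_injective (frobFam_stable) hs hs0 hsurj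
  have hiter : ∀ i : ℕ, ∀ m ≥ m₁, ∀ a ∈ C.R m,
      (s ^ i * a) • frobVec p e ∈ frobFam C p N' (m + i + p * j) →
        a • frobVec p e ∈ frobFam C p N' (m + p * j) := by
    intro i
    induction i with
    | zero => intro m _ a _ h; simpa using h
    | succ i ih =>
      intro m hm a ha h
      refine hinj m hm a ha (ih (m + 1) (by omega) (s * a)
        ((add_comm 1 m) ▸ C.mul_mem _ _ _ hs _ ha) ?_)
      rw [← mul_assoc, ← pow_succ]
      convert h using 2
      push_cast; ring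
  refine Filter.eventually_atTop.2 ⟨max m₁ (∑ q, (M q : ℤ)), fun m hm => ?_⟩
  have hm1 : m₁ ≤ m := (le_max_left _ _).trans hm
  have hMq : ∀ q, (M q : ℤ) ≤ m := fun q => ((Finset.single_le_sum
    (fun i _ => Int.natCast_nonneg (M i)) (Finset.mem_univ q)).trans (le_max_right _ _)).trans hm
  obtain ⟨n, rfl⟩ : ∃ n : ℕ, m = n :=
    ⟨m.toNat, (Int.toNat_of_nonneg ((Int.natCast_nonneg _).trans (hMq (⟨0, hp⟩, ⟨0, hp⟩)))).symm⟩
  refine ⟨fun q => (A q * s ^ (n - M q)) • frobVec p e, fun a ha => ?_⟩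
  obtain ⟨x, hx, z, hz, hxz⟩ := mem_sup.1 (hall ⟨a / s ^ n, frac_mem ha⟩)
  obtain ⟨cq, rfl⟩ := (Submodule.mem_span_range_iff_exists_fun k).1 hx
  obtain ⟨i, b, hb, hbw, hzb⟩ := hz
  set a₁ := ∑ q, cq q • (A q * s ^ (n - M q)) with ha₁
  have hle : ∀ q, M q ≤ n := fun q => by exact_mod_cast hMq q
  have ha₁R : a₁ ∈ C.R n := sum_mem fun q _ => smul_mem _ _ (by
    have := C.mul_mem _ _ _ (hA q) _ (pow_mem_R hs (n - M q))
    rwa [show ((M q : ℕ) : ℤ) + ((n - M q : ℕ) : ℤ) = n by have := hle q; omega] at this)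
  have hkey : s ^ i * (a - a₁) = s ^ n * b := by
    have h := congrArg Subtype.val hxz
    simp only [AddMemClass.coe_add, AddSubmonoidClass.coe_finsetSum, SetLike.val_smul] at h
    rw [hzb] at h
    have h3 : a₁ = s ^ n * ∑ q, cq q • ((u ^ (q.1 : ℕ) * v ^ (q.2 : ℕ) : C.chart s) : K) := by
      rw [ha₁, Finset.mul_sum]
      refine Finset.sum_congr rfl fun q _ => ?_
      rw [hAq q, mul_smul_comm]
      congr 1
      conv_rhs => rw [← Nat.sub_add_cancel (hle q), pow_add]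
      field_simp
    rw [h3, show a = s ^ n * (a / s ^ n) by field_simp, ← h]
    field_simp
    ring
  have hrest : (a - a₁) • frobVec p e ∈ frobFam C p N' (n + p * j) := by
    refine hiter i n hm1 _ (sub_mem ha ha₁R) ?_
    rw [hkey, mul_smul]
    convert frobFam_stable _ _ _ (pow_mem_R hs n) _ hbw using 2
    ring
  rw [show a • frobVec p e = (a - a₁) • frobVec p e + a₁ • frobVec p e by rw [sub_smul, sub_add_cancel]]
  refine add_mem (mem_sup_left hrest) (mem_sup_right ?_)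
  rw [ha₁, Finset.sum_smul]
  exact sum_mem fun q _ => by
    rw [smul_assoc]; exact smul_mem _ _ (subset_span ⟨q, rfl⟩)

end Vale.Agent.P190.Colength
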